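import Vale.Agent.P052.Data

/-!
# Finite checks on the data

Every check is evaluated by the kernel.
-/

namespace Vale.Agent.P052

/-- Adjacency. -/
def adjN (a b : ℕ) : Bool := (mask a).testBit b

/-- Test a property of all numbers below `n`. -/
def allBelow : ℕ → (ℕ → Bool) → Bool
  | 0, _ => true
  | n + 1, p => p n && allBelow n p

theorem allBelow_spec {n : ℕ} {p : ℕ → Bool} (h : allBelow n p = true) :
    ∀ i < n, p i = true := by
  induction n with
  | zero => intro i hi; omega
  | succ n ih =>
    rw [allBelow, Bool.and_eq_true] at h
    intro i hi
    rcases (show i = n ∨ i < n by omega) with rfl | hi'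
    · exact h.1
    · exact ih h.2 i hi'

/-- The neighbour list. -/
def nbrs (a : ℕ) : List ℕ := (List.range 100).map (entry (nbrPack a))

/-- Union of the singleton bit masks of a list. -/
def maskOf : List ℕ → ℕ
  | [] => 0
  | x :: l => 2 ^ x ||| maskOf l

theorem testBit_maskOf : ∀ (l : List ℕ) (b : ℕ), (maskOf l).testBit b = decide (b ∈ l)
  | [], b => by simp [maskOf]
  | x :: l, b => by
    simp [maskOf, testBit_maskOf l b, Nat.testBit_two_pow, eq_comm]

/-- No `k` pairwise adjacent members of the list. -/
def noClique : ℕ → List ℕ → Bool
  | 0, _ => false
  | k + 1, l => l.tails.all fun t =>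
      match t with
      | [] => true
      | x :: xs => noClique k (xs.filter (adjN x))

theorem check_mask : allBelow 416 (fun a => mask a == maskOf (nbrs a)) = true := by
  decide +kernel

theorem check_range : allBelow 416 (fun i =>
    entry gTab0 i < 416 && entry gTab1 i < 416 && entry gTab2 i < 416 &&
      entry hTab0 i < 416 && entry hTab1 i < 416 && entry hTab2 i < 416 &&
      entry orderTab i < 416 && entry posTab i < 416 && (i == 0 || entry srcTab i < i)) = true := by
  decide +kernel

theorem check_inverse : allBelow 416 (fun i =>
    entry hTab0 (entry gTab0 i) == i && entry hTab1 (entry gTab1 i) == i &&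
      entry hTab2 (entry gTab2 i) == i && entry orderTab (entry posTab i) == i) = true := by
  decide +kernel

theorem check_aut0 : allBelow 416 (fun a => (nbrs a).all fun b =>
    adjN (entry gTab0 a) (entry gTab0 b)) = true := by
  decide +kernel

theorem check_aut1 : allBelow 416 (fun a => (nbrs a).all fun b =>
    adjN (entry gTab1 a) (entry gTab1 b)) = true := by
  decide +kernel

theorem check_aut2 : allBelow 416 (fun a => (nbrs a).all fun b =>
    adjN (entry gTab2 a) (entry gTab2 b)) = true := by
  decide +kernel

theorem check_tree : allBelow 416 (fun i => i == 0 ||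
    (match entry genTab i with
      | 0 => entry gTab0 (entry orderTab (entry srcTab i)) == entry orderTab i
      | 1 => entry gTab1 (entry orderTab (entry srcTab i)) == entry orderTab i
      | _ => entry gTab2 (entry orderTab (entry srcTab i)) == entry orderTab i)) = true := by
  decide +kernel

theorem check_root : entry orderTab 0 = 0 := by decide +kernel

theorem check_row0_filter : (List.range 416).filter (adjN 0) = nbrs 0 := by decide +kernel

theorem check_symm0 : allBelow 416 (fun b => adjN 0 b == adjN b 0) = true := by decide +kernel

theorem check_irrefl0 : adjN 0 0 = false := by decide +kernel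

theorem check_srg0 : allBelow 416 (fun b => (nbrs 0).countP (fun c => adjN c b) ==
    (if b = 0 then 100 else if adjN 0 b then 36 else 20)) = true := by
  decide +kernel

theorem check_clique0 : noClique 5 (nbrs 0) = true := by decide +kernel

theorem check_sel : selMask.testBit 0 = false ∧ selMask.testBit 1 = true ∧ selMask.testBit 2 = true ∧
    adjN 1 2 = false ∧ ((List.range 416).countP fun i => selMask.testBit i) = 320 := by
  decide +kernel

theorem check_u1 : (u1List.map Prod.fst).Nodup ∧
    u1List.all (fun p => decide (p.1 < 416) && !selMask.testBit p.1) = true := by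
  decide +kernel

theorem check_u2 : (u2List.map Prod.fst).Nodup ∧
    u2List.all (fun p => decide (p.1 < 416) && !selMask.testBit p.1) = true := by
  decide +kernel

/-- The value at `a` of the vector given by a support list. -/
def valueAt (l : List (ℕ × ℤ)) (a : ℕ) : ℤ :=
  (l.map fun p => if p.1 = a then p.2 else 0).sum

/-- The product of row `a` of the adjacency matrix with a vector given by a support list. -/
def rowDot (l : List (ℕ × ℤ)) (a : ℕ) : ℤ :=
  (l.map fun p => if adjN a p.1 then p.2 else 0).sum

theorem check_eig1 : allBelow 416 (fun a => rowDot u1List a == 20 * valueAt u1List a) = true := by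
  decide +kernel

theorem check_eig2 : allBelow 416 (fun a => rowDot u2List a == 20 * valueAt u2List a) = true := by
  decide +kernel

theorem check_totals : (u1List.map Prod.snd).sum = 0 ∧ (u2List.map Prod.snd).sum = 0 ∧
    (u1List.map fun p => p.2 * valueAt u2List p.1).sum = 0 ∧
    (u1List.map fun p => p.2 * p.2).sum = 64 ∧ (u2List.map fun p => p.2 * p.2).sum = 192 ∧
    valueAt u1List 0 = 1 ∧ valueAt u2List 0 = 1 := by
  decide +kernel

end Vale.Agent.P052
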