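import Vale.Agent.P052.Checks

/-!
# The graph: transitivity and its consequences
-/

namespace Vale.Agent.P052

/-- The vertices. -/
abbrev V : Type := Fin 416

/-- Adjacency of vertices. -/
def Adj (a b : V) : Bool := adjN a b

/-- Selected vertices. -/
def Sel (a : V) : Bool := selMask.testBit a

theorem adjN_iff (a : V) (b : ℕ) : adjN a b = true ↔ b ∈ nbrs a := by
  have h := allBelow_spec check_mask a a.isLt
  simp only [beq_iff_eq] at h
  rw [adjN, h, testBit_maskOf]
  simp

theorem mem_nbrs_lt {a : V} {b : ℕ} (h : b ∈ nbrs a) : b < 512 := by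
  simp only [nbrs, List.mem_map] at h
  obtain ⟨i, _, rfl⟩ := h
  exact Nat.mod_lt _ (by norm_num)

/-- A table as a map of vertices. -/
def toMap (t : ℕ) (ht : ∀ i < 416, entry t i < 416) : V → V :=
  fun a => ⟨entry t a, ht a a.isLt⟩

theorem ranges (i : ℕ) (hi : i < 416) :
    entry gTab0 i < 416 ∧ entry gTab1 i < 416 ∧ entry gTab2 i < 416 ∧
      entry hTab0 i < 416 ∧ entry hTab1 i < 416 ∧ entry hTab2 i < 416 ∧
      entry orderTab i < 416 ∧ entry posTab i < 416 ∧ (i = 0 ∨ entry srcTab i < i) := by
  have h := allBelow_spec check_range i hi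
  simp only [Bool.and_eq_true, Bool.or_eq_true, decide_eq_true_eq, beq_iff_eq] at h
  tauto

theorem inverses (i : ℕ) (hi : i < 416) :
    entry hTab0 (entry gTab0 i) = i ∧ entry hTab1 (entry gTab1 i) = i ∧
      entry hTab2 (entry gTab2 i) = i ∧ entry orderTab (entry posTab i) = i := by
  have h := allBelow_spec check_inverse i hi
  simp only [Bool.and_eq_true, beq_iff_eq] at h
  tauto

/-- A table with a left inverse is a bijection of the vertices. -/
noncomputable def toPerm (t s : ℕ) (ht : ∀ i < 416, entry t i < 416)
    (hts : ∀ i < 416, entry s (entry t i) = i) : V ≃ V :=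
  Equiv.ofBijective (toMap t ht) (Finite.injective_iff_bijective.1 fun a b h => by
    have h' : entry t a = entry t b := congrArg Fin.val h
    apply Fin.ext
    rw [← hts a a.isLt, h', hts b b.isLt])

/-- First automorphism. -/
noncomputable def g0 : V ≃ V :=
  toPerm gTab0 hTab0 (fun i hi => (ranges i hi).1) (fun i hi => (inverses i hi).1)

/-- Second automorphism. -/
noncomputable def g1 : V ≃ V :=
  toPerm gTab1 hTab1 (fun i hi => (ranges i hi).2.1) (fun i hi => (inverses i hi).2.1)

/-- Third automorphism. -/
noncomputable def g2 : V ≃ V :=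
  toPerm gTab2 hTab2 (fun i hi => (ranges i hi).2.2.1) (fun i hi => (inverses i hi).2.2.1)

theorem g0_val (a : V) : ((g0 a : V) : ℕ) = entry gTab0 a := rfl

theorem g1_val (a : V) : ((g1 a : V) : ℕ) = entry gTab1 a := rfl

theorem g2_val (a : V) : ((g2 a : V) : ℕ) = entry gTab2 a := rfl

/-- An injective map sending edges to edges preserves adjacency. -/
theorem adj_iff_of_map (g : V ≃ V) (h : ∀ a b, Adj a b = true → Adj (g a) (g b) = true)
    (a b : V) : Adj (g a) (g b) = Adj a b := by
  let E := {p : V × V // Adj p.1 p.2 = true}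
  let F : E → E := fun p => ⟨(g p.1.1, g p.1.2), h _ _ p.2⟩
  have hF : Function.Injective F := fun p q hpq => by
    have h1 := congrArg (fun r : E => r.1) hpq
    simp only [F, Prod.mk.injEq, EmbeddingLike.apply_eq_iff_eq] at h1
    exact Subtype.ext (Prod.ext h1.1 h1.2)
  rw [Bool.eq_iff_iff]
  refine ⟨fun hab => ?_, h a b⟩
  obtain ⟨p, hp⟩ := (Finite.injective_iff_surjective.1 hF) ⟨(g a, g b), hab⟩
  have h1 := congrArg (fun r : E => r.1) hp
  simp only [F, Prod.mk.injEq, EmbeddingLike.apply_eq_iff_eq] at h1
  have := p.2
  rwa [h1.1, h1.2] at this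

theorem g0_adj (a b : V) : Adj (g0 a) (g0 b) = Adj a b :=
  adj_iff_of_map g0 (fun a b hab =>
    List.all_eq_true.1 (allBelow_spec check_aut0 a a.isLt) b ((adjN_iff a b).1 hab)) a b

theorem g1_adj (a b : V) : Adj (g1 a) (g1 b) = Adj a b :=
  adj_iff_of_map g1 (fun a b hab =>
    List.all_eq_true.1 (allBelow_spec check_aut1 a a.isLt) b ((adjN_iff a b).1 hab)) a b

theorem g2_adj (a b : V) : Adj (g2 a) (g2 b) = Adj a b :=
  adj_iff_of_map g2 (fun a b hab =>
    List.all_eq_true.1 (allBelow_spec check_aut2 a a.isLt) b ((adjN_iff a b).1 hab)) a b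

/-- A property invariant under the automorphisms and true at `0` is true everywhere. -/
theorem transitive_induction (P : V → Prop) (h0 : P 0)
    (h : ∀ g : V ≃ V, (∀ a b, Adj (g a) (g b) = Adj a b) → ∀ a, P a → P (g a)) (a : V) : P a := by
  have key : ∀ i (hi : i < 416), P ⟨entry orderTab i, (ranges i hi).2.2.2.2.2.2.1⟩ := by
    intro i
    induction i using Nat.strong_induction_on with
    | _ i ih =>
      intro hi
      rcases (ranges i hi).2.2.2.2.2.2.2.2 with h1 | h1
      · subst h1
        simp only [check_root]
        exact h0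
      · have hs : entry srcTab i < 416 := by omega
        have hp := ih _ h1 hs
        have ht := allBelow_spec check_tree i hi
        have hne : (i == 0) = false := by simp; omega
        rw [hne, Bool.false_or] at ht
        split at ht
        · convert h g0 g0_adj _ hp using 1
          exact Fin.ext (beq_iff_eq.1 ht).symm
        · convert h g1 g1_adj _ hp using 1
          exact Fin.ext (beq_iff_eq.1 ht).symm
        · convert h g2 g2_adj _ hp using 1
          exact Fin.ext (beq_iff_eq.1 ht).symm
  have hpos := (ranges a a.isLt).2.2.2.2.2.2.2.1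
  have := key _ hpos
  convert this using 1
  exact Fin.ext (inverses a a.isLt).2.2.2.symm

theorem adj_symm (a b : V) : Adj a b = Adj b a := by
  revert b
  refine transitive_induction (fun a => ∀ b, Adj a b = Adj b a) ?_ ?_ a
  · intro b
    exact beq_iff_eq.1 (allBelow_spec check_symm0 b b.isLt)
  · intro g hg a ih b
    rw [← g.apply_symm_apply b, hg, hg]
    exact ih _

theorem adj_irrefl (a : V) : Adj a a = false := by
  refine transitive_induction (fun a => Adj a a = false) check_irrefl0 ?_ a
  intro g hg a ih
  rw [hg]
  exact ih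

theorem count_zero (p : ℕ → Bool) :
    (Finset.univ.filter fun c : V => Adj 0 c = true ∧ p c = true).card = (nbrs 0).countP p := by
  rw [← check_row0_filter, List.countP_filter, List.countP_eq_length_filter]
  have hnd : ((List.range 416).filter fun c => p c && adjN 0 c).Nodup :=
    List.nodup_range.filter _
  rw [← List.toFinset_card_of_nodup hnd]
  refine Finset.card_bij (fun c _ => (c : ℕ)) ?_ ?_ ?_
  · intro c hc
    simp only [Finset.mem_filter, Finset.mem_univ, true_and] at hc
    simp only [List.mem_toFinset, List.mem_filter, List.mem_range, Bool.and_eq_true]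
    exact ⟨c.isLt, hc.2, hc.1⟩
  · intro c _ d _ h
    exact Fin.ext h
  · intro c hc
    simp only [List.mem_toFinset, List.mem_filter, List.mem_range, Bool.and_eq_true] at hc
    exact ⟨⟨c, hc.1⟩, Finset.mem_filter.2 ⟨Finset.mem_univ _, hc.2.2, hc.2.1⟩, rfl⟩

/-- The number of common neighbours. -/
theorem common (a b : V) :
    (Finset.univ.filter fun c : V => Adj a c = true ∧ Adj c b = true).card =
      if b = a then 100 else if Adj a b = true then 36 else 20 := by
  revert b
  refine transitive_induction (fun a => ∀ b,
    (Finset.univ.filter fun c : V => Adj a c = true ∧ Adj c b = true).card =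
      if b = a then 100 else if Adj a b = true then 36 else 20) ?_ ?_ a
  · intro b
    have h := beq_iff_eq.1 (allBelow_spec check_srg0 b b.isLt)
    refine (count_zero (fun c => adjN c b)).trans (h.trans ?_)
    simp only [Fin.ext_iff]
    rfl
  · intro g hg a ih b
    have h := ih (g.symm b)
    have e : ∀ c, (Adj (g a) (g c) = true ∧ Adj (g c) b = true) ↔
        (Adj a c = true ∧ Adj c (g.symm b) = true) := by
      intro c
      conv_lhs => rw [← g.apply_symm_apply b, hg, hg]
    have hc : (Finset.univ.filter fun c : V => Adj (g a) c = true ∧ Adj c b = true) =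
        (Finset.univ.filter fun c : V => Adj a c = true ∧ Adj c (g.symm b) = true).map
          g.toEmbedding := by
      ext c
      simp only [Finset.mem_filter, Finset.mem_univ, true_and, Finset.mem_map_equiv]
      rw [← e, g.apply_symm_apply]
    rw [hc, Finset.card_map, h]
    have h1 : (g.symm b = a) ↔ (b = g a) := g.symm_apply_eq
    have h2 : Adj (g a) b = Adj a (g.symm b) := by
      conv_lhs => rw [← g.apply_symm_apply b, hg]
    simp only [h1, h2]

theorem degree (a : V) : (Finset.univ.filter fun c : V => Adj a c = true).card = 100 := by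
  have h := common a a
  rw [if_pos rfl] at h
  refine Eq.trans (congrArg Finset.card ?_) h
  refine Finset.filter_congr fun c _ => ?_
  rw [adj_symm c a]
  tauto

theorem noClique_spec : ∀ (k : ℕ) (l : List ℕ), noClique k l = true → l.Nodup →
    ∀ C : Finset ℕ, C.card = k → (∀ c ∈ C, c ∈ l) →
      (∀ c ∈ C, ∀ d ∈ C, c ≠ d → adjN c d = true) → False
  | 0, l, h, _, _, _, _, _ => by simp [noClique] at h
  | k + 1, l, h, hnd, C, hC, hsub, hadj => by
    classical
    induction l with
    | nil =>
      obtain ⟨c, hc⟩ := Finset.card_pos.1 (by omega : 0 < C.card)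
      exact absurd (hsub c hc) (by simp)
    | cons x xs ih =>
      rw [noClique, List.tails_cons, List.all_cons, Bool.and_eq_true] at h
      rw [List.nodup_cons] at hnd
      by_cases hx : x ∈ C
      · refine noClique_spec k _ h.1 (hnd.2.filter _) (C.erase x)
          (by rw [Finset.card_erase_of_mem hx, hC]; rfl) ?_ ?_
        · intro c hc
          rw [Finset.mem_erase] at hc
          refine List.mem_filter.2 ⟨(List.mem_cons.1 (hsub c hc.2)).resolve_left hc.1, ?_⟩
          exact hadj x hx c hc.2 (Ne.symm hc.1)
        · exact fun c hc d hd => hadj c (Finset.mem_of_mem_erase hc) d (Finset.mem_of_mem_erase hd)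
      · refine ih h.2 hnd.2 fun c hc => (List.mem_cons.1 (hsub c hc)).resolve_left ?_
        rintro rfl
        exact hx hc

/-- The graph has no six pairwise adjacent vertices. -/
theorem no_six (C : Finset V) (hC : C.card = 6)
    (hadj : ∀ c ∈ C, ∀ d ∈ C, c ≠ d → Adj c d = true) : False := by
  obtain ⟨a, ha⟩ := Finset.card_pos.1 (by omega : 0 < C.card)
  refine transitive_induction (fun a => ∀ C : Finset V, C.card = 6 → a ∈ C →
    (∀ c ∈ C, ∀ d ∈ C, c ≠ d → Adj c d = true) → False) ?_ ?_ a C hC ha hadj
  · intro C hC h0 hadj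
    classical
    refine noClique_spec 5 (nbrs 0) check_clique0 ?_ ((C.erase 0).map Fin.valEmbedding) ?_ ?_ ?_
    · rw [← check_row0_filter]
      exact List.nodup_range.filter _
    · rw [Finset.card_map, Finset.card_erase_of_mem h0, hC]
    · intro c hc
      simp only [Finset.mem_map, Finset.mem_erase] at hc
      obtain ⟨d, hd, rfl⟩ := hc
      exact (adjN_iff 0 d).1 (hadj 0 h0 d hd.2 (Ne.symm hd.1))
    · intro c hc d hd hcd
      simp only [Finset.mem_map, Finset.mem_erase] at hc hd
      obtain ⟨c', hc', rfl⟩ := hc
      obtain ⟨d', hd', rfl⟩ := hd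
      exact hadj c' hc'.2 d' hd'.2 fun h => hcd (by rw [h])
  · intro g hg a ih C hC haC hadj
    classical
    refine ih (C.map g.symm.toEmbedding) (by rw [Finset.card_map, hC]) ?_ ?_
    · simp only [Finset.mem_map_equiv, Equiv.symm_symm]
      exact haC
    · intro c hc d hd hcd
      simp only [Finset.mem_map_equiv, Equiv.symm_symm] at hc hd
      rw [← hg]
      exact hadj _ hc _ hd fun h => hcd (g.injective h)

end Vale.Agent.P052
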