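import Vale.Agent.P052.Graph

/-!
# The points in a 63-dimensional space

`M v w = 15/4, 3/4, -1/4` for equal, adjacent and non-adjacent vertices satisfies `M * M = 24 * M`.
The selected rows of `M` lie in a 63-dimensional subspace.
-/

namespace Vale.Agent.P052

open scoped RealInnerProductSpace

/-- The ambient space. -/
abbrev Amb : Type := EuclideanSpace ℝ V

/-- Adjacency as a real number. -/
noncomputable def adjR (a b : V) : ℝ := if Adj a b = true then 1 else 0

/-- The Kronecker delta. -/
noncomputable def dlt (a b : V) : ℝ := if a = b then 1 else 0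

/-- The matrix `M = A + 4 I - J / 4`. -/
noncomputable def M (a b : V) : ℝ := adjR a b + 4 * dlt a b - 1 / 4

theorem M_self (a : V) : M a a = 15 / 4 := by
  simp [M, adjR, dlt, adj_irrefl a]
  norm_num

theorem M_adj {a b : V} (h : Adj a b = true) : M a b = 3 / 4 := by
  have hne : a ≠ b := by
    rintro rfl
    rw [adj_irrefl a] at h
    exact Bool.false_ne_true h
  simp [M, adjR, dlt, h, hne]
  norm_num

theorem M_non {a b : V} (hne : a ≠ b) (h : Adj a b = false) : M a b = -1 / 4 := by
  simp [M, adjR, dlt, h, hne]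
  norm_num

theorem M_symm (a b : V) : M a b = M b a := by
  simp only [M, adjR, dlt, adj_symm a b, eq_comm (a := a)]

theorem sum_adjR (a : V) : ∑ c, adjR a c = 100 := by
  simp only [adjR, Finset.sum_boole, degree a]
  norm_num

theorem sum_adjR' (b : V) : ∑ c, adjR c b = 100 := by
  simp only [adjR, adj_symm _ b]
  exact sum_adjR b

theorem sum_dlt (a : V) : ∑ c, dlt a c = 1 := by simp [dlt]

theorem sum_dlt' (b : V) : ∑ c, dlt c b = 1 := by simp [dlt]

theorem sum_adjR_mul (a b : V) :
    ∑ c, adjR a c * adjR c b = 80 * dlt a b + 16 * adjR a b + 20 := by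
  have h : ∑ c, adjR a c * adjR c b =
      ((Finset.univ.filter fun c : V => Adj a c = true ∧ Adj c b = true).card : ℝ) := by
    rw [← Finset.sum_boole]
    refine Finset.sum_congr rfl fun c _ => ?_
    simp only [adjR]
    by_cases h1 : Adj a c = true <;> simp [h1]
  rw [h, common]
  by_cases hab : b = a
  · subst hab
    simp [dlt, adjR, adj_irrefl b]
    norm_num
  · rw [if_neg hab]
    by_cases h2 : Adj a b = true
    · simp [dlt, adjR, h2, Ne.symm hab]
      norm_num
    · simp [dlt, adjR, h2, Ne.symm hab]

theorem M_mul (a b : V) : ∑ c, M a c * M c b = 24 * M a b := by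
  have e : ∀ c, M a c * M c b = adjR a c * adjR c b + 4 * (dlt a c * adjR c b) +
      4 * (adjR a c * dlt c b) + 16 * (dlt a c * dlt c b) - 1 / 4 * adjR a c -
      1 / 4 * adjR c b - dlt a c - dlt c b + 1 / 16 := fun c => by simp only [M]; ring
  have h1 : ∑ c, dlt a c * adjR c b = adjR a b := by simp [dlt]
  have h2 : ∑ c, adjR a c * dlt c b = adjR a b := by simp [dlt]
  have h3 : ∑ c, dlt a c * dlt c b = dlt a b := by simp [dlt]
  rw [Finset.sum_congr rfl fun c _ => e c]
  simp only [Finset.sum_add_distrib, Finset.sum_sub_distrib, ← Finset.mul_sum, h1, h2, h3,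
    sum_adjR_mul, sum_adjR, sum_adjR', sum_dlt, sum_dlt', Finset.sum_const, Finset.card_univ,
    Fintype.card_fin, nsmul_eq_mul]
  simp only [M]
  push_cast
  ring

/-- The projection with matrix `M / 24`. -/
noncomputable def proj : Amb →ₗ[ℝ] Amb :=
  Matrix.toEuclideanLin (Matrix.of fun a b : V => M a b / 24)

theorem proj_apply (y : Amb) (a : V) : proj y a = ∑ b, M a b / 24 * y b := by
  simp only [proj, Matrix.toEuclideanLin, Matrix.toLpLin_apply, Matrix.mulVec, dotProduct,
    Matrix.of_apply]

theorem proj_proj (y : Amb) : proj (proj y) = proj y := by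
  ext a
  simp only [proj_apply, Finset.mul_sum]
  rw [Finset.sum_comm]
  refine Finset.sum_congr rfl fun b _ => ?_
  have h : ∑ c, M a c / 24 * (M c b / 24 * y b) = (∑ c, M a c * M c b) * (y b / 576) := by
    rw [Finset.sum_mul]
    exact Finset.sum_congr rfl fun c _ => by ring
  rw [h, M_mul]
  ring

theorem proj_isProj : LinearMap.IsProj (LinearMap.range proj) proj :=
  ⟨fun y => ⟨y, rfl⟩, by rintro _ ⟨y, rfl⟩; exact proj_proj y⟩

theorem finrank_range : Module.finrank ℝ (LinearMap.range proj) = 65 := by
  have h := proj_isProj.trace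
  have htr : LinearMap.trace ℝ Amb proj = 65 := by
    rw [proj, Matrix.toEuclideanLin_eq_toLin_orthonormal, Matrix.trace_toLin_eq]
    simp [Matrix.trace, M_self]
    norm_num
  rw [htr] at h
  exact_mod_cast h.symm

/-- A vector that the projection fixes lies in its range. -/
theorem mem_range_of {y : Amb} (h : ∀ a, ∑ b, M a b * y b = 24 * y a) :
    y ∈ LinearMap.range proj := by
  refine ⟨y, ?_⟩
  ext a
  have : ∑ b, M a b / 24 * y b = (∑ b, M a b * y b) / 24 := by
    rw [Finset.sum_div]
    exact Finset.sum_congr rfl fun b _ => by ring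
  rw [proj_apply, this, h a]
  ring

/-- A row of `M`. -/
noncomputable def pt (v : V) : Amb := WithLp.toLp 2 fun c => M v c

theorem pt_mem (v : V) : pt v ∈ LinearMap.range proj := by
  refine mem_range_of fun a => ?_
  simp only [pt, M_symm v]
  exact M_mul a v

theorem inner_amb (y z : Amb) : ⟪y, z⟫ = ∑ c, y c * z c := by
  rw [PiLp.inner_apply]
  exact Finset.sum_congr rfl fun c _ => by simp [mul_comm]

theorem inner_pt (v w : V) : ⟪pt v, pt w⟫ = 24 * M v w := by
  rw [inner_amb]
  simp only [pt]
  rw [← M_mul v w]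
  exact Finset.sum_congr rfl fun c _ => by rw [M_symm w c]

/-- The vector with a given support list. -/
noncomputable def vec (l : List (ℕ × ℤ)) : Amb := WithLp.toLp 2 fun c => (valueAt l c : ℝ)

theorem vec_apply (l : List (ℕ × ℤ)) (c : V) : vec l c = (valueAt l c : ℝ) := rfl

theorem sum_valueAt_mul (l : List (ℕ × ℤ)) (hl : ∀ p ∈ l, p.1 < 416) (f : ℕ → ℤ) :
    ∑ c : V, valueAt l c * f c = (l.map fun p => p.2 * f p.1).sum := by
  induction l with
  | nil => simp [valueAt]
  | cons p l ih =>
    simp only [List.mem_cons, forall_eq_or_imp] at hl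
    have e : ∀ c : V, valueAt (p :: l) c * f c =
        (if c = (⟨p.1, hl.1⟩ : V) then p.2 * f p.1 else 0) + valueAt l c * f c := by
      intro c
      simp only [valueAt, List.map_cons, List.sum_cons, Fin.ext_iff, eq_comm (a := (c : ℕ))]
      by_cases hc : p.1 = (c : ℕ)
      · simp [hc]; ring
      · simp [hc]
    simp only [e, Finset.sum_add_distrib, Finset.sum_ite_eq', Finset.mem_univ, if_true, ih hl.2,
      List.map_cons, List.sum_cons]

theorem valueAt_eq_zero {l : List (ℕ × ℤ)} {a : ℕ} (h : ∀ p ∈ l, p.1 ≠ a) : valueAt l a = 0 := by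
  induction l with
  | nil => rfl
  | cons p l ih =>
    simp only [List.mem_cons, forall_eq_or_imp] at h
    simp [valueAt, h.1] at ih ⊢
    exact ih fun a b hab => h.2 (a, b) hab

theorem lt_of_check {l : List (ℕ × ℤ)}
    (h : l.all (fun p => decide (p.1 < 416) && !selMask.testBit p.1) = true) :
    ∀ p ∈ l, p.1 < 416 ∧ selMask.testBit p.1 = false := fun p hp => by
  simpa using List.all_eq_true.1 h p hp

theorem vec_facts {l : List (ℕ × ℤ)}
    (hl : l.all (fun p => decide (p.1 < 416) && !selMask.testBit p.1) = true)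
    (heig : allBelow 416 (fun a => rowDot l a == 20 * valueAt l a) = true)
    (htot : (l.map Prod.snd).sum = 0) :
    vec l ∈ LinearMap.range proj ∧ (∀ v, ⟪pt v, vec l⟫ = 24 * (valueAt l v : ℝ)) ∧
      ∀ v : V, Sel v = true → valueAt l v = 0 := by
  have hlt : ∀ p ∈ l, p.1 < 416 := fun p hp => (lt_of_check hl p hp).1
  have key : ∀ a, ∑ b, M a b * vec l b = 24 * vec l a := by
    intro a
    have h1 : ∑ b, adjR a b * vec l b = ((20 * valueAt l a : ℤ) : ℝ) := by
      rw [← beq_iff_eq.1 (allBelow_spec heig a a.isLt)]
      have h := sum_valueAt_mul l hlt (fun b => if adjN a b then 1 else 0)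
      have h' : rowDot l a = (l.map fun p => p.2 * if adjN a p.1 then (1 : ℤ) else 0).sum := by
        simp only [rowDot, mul_ite, mul_one, mul_zero]
      rw [h', ← h, Int.cast_sum]
      refine Finset.sum_congr rfl fun b _ => ?_
      by_cases hb : adjN a b = true <;> simp [adjR, Adj, hb, vec_apply]
    have h2 : ∑ b, vec l b = 0 := by
      have h := sum_valueAt_mul l hlt (fun _ => 1)
      simp only [mul_one] at h
      rw [htot] at h
      simp only [vec_apply]
      exact_mod_cast h
    have e : ∀ b, M a b * vec l b =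
        adjR a b * vec l b + 4 * (dlt a b * vec l b) - 1 / 4 * vec l b := fun b => by
      simp only [M]; ring
    have h3 : ∑ b, dlt a b * vec l b = vec l a := by simp [dlt]
    simp only [e, Finset.sum_add_distrib, Finset.sum_sub_distrib, ← Finset.mul_sum, h1, h2, h3]
    push_cast [vec_apply]
    ring
  refine ⟨mem_range_of key, fun v => ?_, fun v hv => ?_⟩
  · rw [inner_amb]
    simp only [pt]
    exact key v
  · refine valueAt_eq_zero fun p hp hpv => ?_
    have := (lt_of_check hl p hp).2
    rw [hpv] at this
    simp [Sel, this] at hv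

theorem inner_vec (l m : List (ℕ × ℤ)) (hl : ∀ p ∈ l, p.1 < 416) :
    ⟪vec l, vec m⟫ = (((l.map fun p => p.2 * valueAt m p.1).sum : ℤ) : ℝ) := by
  rw [inner_amb, ← sum_valueAt_mul l hl (valueAt m), Int.cast_sum]
  exact Finset.sum_congr rfl fun c _ => by simp [vec_apply]

/-- The first eigenvector. -/
noncomputable def u₁ : Amb := vec u1List

/-- The second eigenvector. -/
noncomputable def u₂ : Amb := vec u2List

theorem inner_u11 : ⟪u₁, u₁⟫ = 64 := by
  have hlt := fun p hp => (lt_of_check check_u1.2 p hp).1
  rw [u₁, inner_vec _ _ hlt]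
  have h : (u1List.map fun p => p.2 * valueAt u1List p.1).sum = 64 := by decide +kernel
  rw [h]; norm_num

theorem inner_u22 : ⟪u₂, u₂⟫ = 192 := by
  have hlt := fun p hp => (lt_of_check check_u2.2 p hp).1
  rw [u₂, inner_vec _ _ hlt]
  have h : (u2List.map fun p => p.2 * valueAt u2List p.1).sum = 192 := by decide +kernel
  rw [h]; norm_num

theorem inner_u12 : ⟪u₁, u₂⟫ = 0 := by
  rw [u₁, u₂, inner_vec _ _ (fun p hp => (lt_of_check check_u1.2 p hp).1), check_totals.2.2.1]
  norm_num

theorem inner_u21 : ⟪u₂, u₁⟫ = 0 := by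
  rw [real_inner_comm]; exact inner_u12

theorem facts₁ : u₁ ∈ LinearMap.range proj ∧ (∀ v, ⟪pt v, u₁⟫ = 24 * (valueAt u1List v : ℝ)) ∧
    ∀ v : V, Sel v = true → valueAt u1List v = 0 :=
  vec_facts check_u1.2 check_eig1 check_totals.1

theorem facts₂ : u₂ ∈ LinearMap.range proj ∧ (∀ v, ⟪pt v, u₂⟫ = 24 * (valueAt u2List v : ℝ)) ∧
    ∀ v : V, Sel v = true → valueAt u2List v = 0 :=
  vec_facts check_u2.2 check_eig2 check_totals.2.1

/-- The span of the two eigenvectors. -/
noncomputable def plane : Submodule ℝ Amb := Submodule.span ℝ {u₁, u₂}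

/-- The 63-dimensional subspace. -/
noncomputable def flat : Submodule ℝ Amb := planeᗮ ⊓ LinearMap.range proj

theorem mem_plane_orth {y : Amb} (h1 : ⟪y, u₁⟫ = 0) (h2 : ⟪y, u₂⟫ = 0) : y ∈ planeᗮ := by
  rw [Submodule.mem_orthogonal']
  intro z hz
  rw [plane, Submodule.mem_span_pair] at hz
  obtain ⟨a, b, rfl⟩ := hz
  rw [inner_add_right, real_inner_smul_right, real_inner_smul_right, h1, h2]
  ring

theorem finrank_flat : Module.finrank ℝ flat = 63 := by
  have hle : plane ≤ LinearMap.range proj := by
    rw [plane, Submodule.span_le]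
    rintro y (rfl | rfl)
    · exact facts₁.1
    · exact facts₂.1
  have h := Submodule.finrank_add_inf_finrank_orthogonal hle
  rw [finrank_range] at h
  have hli : LinearIndependent ℝ ![u₁, u₂] := by
    rw [LinearIndependent.pair_iff]
    intro s t hst
    have h1 := congrArg (fun y => ⟪u₁, y⟫) hst
    have h2 := congrArg (fun y => ⟪u₂, y⟫) hst
    simp only [inner_add_right, real_inner_smul_right, inner_u11, inner_u12, inner_u21, inner_u22,
      inner_zero_right] at h1 h2
    constructor <;> linarith
  have h2 : Module.finrank ℝ plane = 2 := by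
    have := finrank_span_eq_card hli
    have hr : Set.range ![u₁, u₂] = {u₁, u₂} := by
      ext z
      simp [eq_comm, or_comm]
    rw [hr, Fintype.card_fin] at this
    exact this
  rw [h2] at h
  unfold flat
  omega

/-- The scaling of the extra point. -/
noncomputable def lam : ℝ := (-6 + √7992) / 78

theorem lam_pos : 0 < lam := by
  have : (6 : ℝ) < √7992 := (Real.lt_sqrt (by norm_num)).2 (by norm_num)
  unfold lam
  have : 0 < -6 + √7992 := by linarith
  positivity

theorem lam_eq : 78 * lam ^ 2 + 12 * lam = 102 := by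
  have := Real.sq_sqrt (by norm_num : (0 : ℝ) ≤ 7992)
  unfold lam
  nlinarith

/-- The extra point: a multiple of the projection of the row of the vertex `0`. -/
noncomputable def extra : Amb := lam • (pt 0 - (24 / 64 : ℝ) • u₁ - (24 / 192 : ℝ) • u₂)

/-- The index of the points: the selected vertices and one more. -/
abbrev Idx : Type := Option {v : V // Sel v = true}

/-- The points. -/
noncomputable def point : Idx → Amb
  | none => extra
  | some v => pt v.1

/-- The vertex behind a point. -/
def vert : Idx → V
  | none => 0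
  | some v => v.1

theorem not_sel_zero : Sel 0 = false := check_sel.1

theorem vert_injective : Function.Injective vert := by
  intro x y h
  cases x with
  | none =>
    cases y with
    | none => rfl
    | some w =>
      have := w.2
      simp only [vert] at h
      rw [← h, not_sel_zero] at this
      exact absurd this Bool.false_ne_true
  | some v =>
    cases y with
    | none =>
      have := v.2
      simp only [vert] at h
      rw [h, not_sel_zero] at this
      exact absurd this Bool.false_ne_true
    | some w => exact congrArg some (Subtype.ext h)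

theorem point_mem (x : Idx) : point x ∈ flat := by
  cases x with
  | none =>
    refine ⟨mem_plane_orth ?_ ?_, ?_⟩
    · rw [point, extra, real_inner_smul_left, inner_sub_left, inner_sub_left,
        real_inner_smul_left, real_inner_smul_left, inner_u11, inner_u21, facts₁.2.1]
      have h : valueAt u1List ((0 : V) : ℕ) = 1 := check_totals.2.2.2.2.2.1
      rw [h]; norm_num
    · rw [point, extra, real_inner_smul_left, inner_sub_left, inner_sub_left,
        real_inner_smul_left, real_inner_smul_left, inner_u12, inner_u22, facts₂.2.1]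
      have h : valueAt u2List ((0 : V) : ℕ) = 1 := check_totals.2.2.2.2.2.2
      rw [h]; norm_num
    · exact Submodule.smul_mem _ _ (Submodule.sub_mem _ (Submodule.sub_mem _ (pt_mem 0)
        (Submodule.smul_mem _ _ facts₁.1)) (Submodule.smul_mem _ _ facts₂.1))
  | some v =>
    refine ⟨mem_plane_orth ?_ ?_, pt_mem v.1⟩
    · rw [point, facts₁.2.1, facts₁.2.2 v.1 v.2]; simp
    · rw [point, facts₂.2.1, facts₂.2.2 v.1 v.2]; simp

theorem dist_sq_pt (v w : V) : dist (pt v) (pt w) ^ 2 = 180 - 48 * M v w := by
  rw [dist_eq_norm, norm_sub_sq_real, ← real_inner_self_eq_norm_sq, ← real_inner_self_eq_norm_sq,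
    inner_pt, inner_pt, inner_pt, M_self, M_self]
  ring

theorem dist_sq_extra (v : V) (hv : Sel v = true) :
    dist extra (pt v) ^ 2 = 78 * lam ^ 2 - 48 * lam * M v 0 + 90 := by
  have a1 : ⟪pt v, u₁⟫ = 0 := by rw [facts₁.2.1, facts₁.2.2 v hv]; simp
  have a2 : ⟪pt v, u₂⟫ = 0 := by rw [facts₂.2.1, facts₂.2.2 v hv]; simp
  have c1 : ⟪u₁, pt v⟫ = 0 := by rw [real_inner_comm]; exact a1
  have c2 : ⟪u₂, pt v⟫ = 0 := by rw [real_inner_comm]; exact a2
  have b1 : ⟪pt 0, u₁⟫ = 24 := by
    have h : valueAt u1List ((0 : V) : ℕ) = 1 := check_totals.2.2.2.2.2.1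
    rw [facts₁.2.1, h]; norm_num
  have b2 : ⟪pt 0, u₂⟫ = 24 := by
    have h : valueAt u2List ((0 : V) : ℕ) = 1 := check_totals.2.2.2.2.2.2
    rw [facts₂.2.1, h]; norm_num
  have d1 : ⟪u₁, pt 0⟫ = 24 := by rw [real_inner_comm]; exact b1
  have d2 : ⟪u₂, pt 0⟫ = 24 := by rw [real_inner_comm]; exact b2
  have e : ⟪extra, extra⟫ = 78 * lam ^ 2 := by
    simp only [extra, real_inner_smul_left, real_inner_smul_right, inner_sub_left, inner_sub_right,
      inner_pt, M_self, b1, b2, d1, d2, inner_u11, inner_u12, inner_u21, inner_u22]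
    ring
  have f : ⟪extra, pt v⟫ = 24 * lam * M v 0 := by
    simp only [extra, real_inner_smul_left, inner_sub_left, inner_pt, c1, c2, M_symm 0 v]
    ring
  rw [dist_eq_norm, norm_sub_sq_real, ← real_inner_self_eq_norm_sq, ← real_inner_self_eq_norm_sq,
    e, f, inner_pt, M_self]
  ring

theorem dist_sq_facts {x y : Idx} (h : x ≠ y) :
    dist (point x) (point y) ^ 2 ≤ 192 ∧
      (Adj (vert x) (vert y) = false → dist (point x) (point y) ^ 2 = 192) := by
  have hne : vert x ≠ vert y := fun e => h (vert_injective e)
  cases x with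
  | none =>
    cases y with
    | none => exact absurd rfl h
    | some w =>
      simp only [point, vert] at *
      rw [dist_sq_extra w.1 w.2]
      by_cases ha : Adj 0 w.1 = true
      · rw [M_symm, M_adj ha]
        refine ⟨by nlinarith [lam_pos, lam_eq], fun h' => ?_⟩
        rw [ha] at h'; exact absurd h' (by decide)
      · rw [M_symm, M_non hne (by simpa using ha)]
        exact ⟨by nlinarith [lam_eq], fun _ => by linarith [lam_eq]⟩
  | some v =>
    cases y with
    | none =>
      simp only [point, vert] at *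
      rw [dist_comm, dist_sq_extra v.1 v.2]
      by_cases ha : Adj v.1 0 = true
      · rw [M_adj ha]
        refine ⟨by nlinarith [lam_pos, lam_eq], fun h' => ?_⟩
        rw [ha] at h'; exact absurd h' (by decide)
      · rw [M_non hne (by simpa using ha)]
        exact ⟨by nlinarith [lam_eq], fun _ => by linarith [lam_eq]⟩
    | some w =>
      simp only [point, vert] at *
      rw [dist_sq_pt]
      by_cases ha : Adj v.1 w.1 = true
      · rw [M_adj ha]
        refine ⟨by norm_num, fun h' => ?_⟩
        rw [ha] at h'; exact absurd h' (by decide)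
      · rw [M_non hne (by simpa using ha)]
        norm_num

theorem card_idx : Fintype.card Idx = 321 := by
  rw [Fintype.card_option, Fintype.card_subtype]
  have h : (Finset.univ.filter fun v : V => Sel v = true).card = 320 := by
    rw [← check_sel.2.2.2.2, List.countP_eq_length_filter,
      ← List.toFinset_card_of_nodup (List.nodup_range.filter _)]
    refine Finset.card_bij (fun c _ => (c : ℕ)) ?_ ?_ ?_
    · intro c hc
      simpa only [List.mem_toFinset, List.mem_filter, List.mem_range] using
        ⟨c.isLt, (Finset.mem_filter.1 hc).2⟩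
    · intro c _ d _ h
      exact Fin.ext h
    · intro c hc
      simp only [List.mem_toFinset, List.mem_filter, List.mem_range] at hc
      exact ⟨⟨c, hc.1⟩, Finset.mem_filter.2 ⟨Finset.mem_univ _, hc.2⟩, rfl⟩
  omega

end Vale.Agent.P052
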